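import Vale.Agent.P324.Decide

open Vale.Agent.P324

namespace Vale.Agent.Results.P324.Decision

open Classical in
/-- A deterministic Turing machine decides in polynomial time whether a precedence graph of unit
jobs has a schedule of length `T` on three machines. -/
theorem result : ∃ M : Turing.TM2ComputableInPolyTime
    (fun p : Dag × ℕ => codePair p.1.code (codeNat p.2)) codeBool
    (fun p => decide (∃ τ, p.1.IsSchedule p.2 τ)), ∀ k, Finite (M.tm.Γ k) :=
  decision

end Vale.Agent.Results.P324.Decision
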