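import Vale.Agent.P324.Search

open Vale.Agent.P324

namespace Vale.Agent.Results.P324.Optimal

open Classical in
/-- Deterministic Turing machines decide in polynomial time whether a precedence graph of unit
jobs has a schedule of length `T` on three machines, and compute a schedule of least length. -/
theorem result :
    (∃ M : Turing.TM2ComputableInPolyTime
      (fun p : Dag × ℕ => codePair p.1.code (codeNat p.2)) codeBool
      (fun p => decide (∃ τ, p.1.IsSchedule p.2 τ)), ∀ k, Finite (M.tm.Γ k)) ∧
    ∃ τ : (G : Dag) → Fin G.n → ℕ,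
      (∀ G : Dag, ∃ T, G.IsSchedule T (τ G) ∧ ∀ T' σ, G.IsSchedule T' σ → T ≤ T') ∧
      ∃ M : Turing.TM2ComputableInPolyTime Dag.code (codeList codeNat) fun G => List.ofFn (τ G),
        ∀ k, Finite (M.tm.Γ k) :=
  ⟨decision, search⟩

end Vale.Agent.Results.P324.Optimal
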